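import Vale.Agent.P237.Petty.Cor.Low20.H2b.Data

/-!
# P237: kernel checks of boxes 2 to 4
-/

namespace Vale.Agent.P237.Petty.Cor.Low20.H2b

def check2_1 : cutAll dat.Z1 ((boxAll dat box2).drop 32)
  [(.split 0 .leaf (.split 1 .leaf (.split 0 .leaf .leaf))), .leaf, (.split 0 (.split 1 (.split 0
    .leaf .leaf) (.split 0 .leaf .leaf)) .leaf), .leaf, .leaf, .leaf, .leaf, .leaf] = true := by
  decide +kernel

def check3_0 : cutAll dat.Z1 ((boxAll dat box3).take 31)
  [.leaf, .leaf, .leaf, .leaf, .leaf, .leaf, .leaf, .leaf, .leaf, .leaf, .leaf, .leaf, .leaf, .leaf,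
    .leaf, .leaf, .leaf, (.split 2 .leaf (.split 2 .leaf (.split 0 (.split 2 .leaf (.split 2 .leaf
    .leaf)) (.split 2 .leaf (.split 2 .leaf .leaf))))), .leaf, .leaf, .leaf, .leaf, .leaf, .leaf,
    .leaf, .leaf, (.split 2 .leaf (.split 2 .leaf (.split 0 (.split 2 .leaf (.split 2 .leaf .leaf))
    (.split 2 .leaf (.split 2 .leaf .leaf))))), .leaf, .leaf, .leaf, .leaf] = true := by
  decide +kernel

def check3_1 : cutAll dat.Z1 ((boxAll dat box3).drop 31)
  [.leaf, (.split 0 .leaf .leaf), .leaf, (.split 0 .leaf .leaf), .leaf, .leaf, .leaf, .leaf, .leaf] = true := by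
  decide +kernel

def check4_0 : cutAll dat.Z1 ((boxAll dat box4).take 31)
  [.leaf, .leaf, .leaf, .leaf, .leaf, .leaf, .leaf, .leaf, .leaf, .leaf, .leaf, .leaf, .leaf, .leaf,
    .leaf, .leaf, .leaf, (.split 2 .leaf (.split 2 .leaf (.split 0 (.split 2 .leaf (.split 2 .leaf
    .leaf)) (.split 2 .leaf (.split 2 .leaf .leaf))))), .leaf, .leaf, .leaf, .leaf, .leaf, .leaf,
    .leaf, .leaf, (.split 2 .leaf (.split 2 .leaf (.split 0 (.split 2 .leaf (.split 2 .leaf .leaf))
    (.split 2 .leaf (.split 2 .leaf .leaf))))), .leaf, .leaf, .leaf, .leaf] = true := by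
  decide +kernel

def check4_1 : cutAll dat.Z1 ((boxAll dat box4).drop 31)
  [.leaf, .leaf, .leaf, (.split 0 .leaf .leaf), .leaf, .leaf, .leaf, .leaf, .leaf] = true := by
  decide +kernel

end Vale.Agent.P237.Petty.Cor.Low20.H2b
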