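import Vale.Agent.P237.Petty.Cor.Low20.H2b.Data

/-!
# P237: kernel checks of boxes 5 to 7
-/

namespace Vale.Agent.P237.Petty.Cor.Low20.H2b

def check5_0 : cutAll dat.Z1 ((boxAll dat box5).take 29)
  [(.split 0 (.split 0 (.split 1 (.split 0 .leaf .leaf) (.split 0 .leaf .leaf)) .leaf) .leaf),
    .leaf, .leaf, .leaf, .leaf, .leaf, .leaf, .leaf, .leaf, .leaf, (.split 0 .leaf .leaf), .leaf,
    .leaf, .leaf, .leaf, .leaf, .leaf, (.split 2 .leaf (.split 2 .leaf (.split 2 .leaf (.split 2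
    .leaf (.split 2 .leaf .leaf))))), .leaf, .leaf, .leaf, .leaf, .leaf, .leaf, .leaf, .leaf,
    (.split 2 .leaf (.split 2 .leaf (.split 2 .leaf (.split 2 .leaf (.split 2 .leaf .leaf))))),
    .leaf, .leaf] = true := by
  decide +kernel

def check5_1 : cutAll dat.Z1 ((boxAll dat box5).drop 29)
  [.leaf, .leaf, .leaf, .leaf, .leaf, .leaf, .leaf, .leaf, .leaf, .leaf, .leaf] = true := by
  decide +kernel

def check6_0 : cutAll dat.Z1 ((boxAll dat box6).take 32)
  [(.split 0 (.split 1 .leaf .leaf) .leaf), .leaf, .leaf, .leaf, .leaf, .leaf, .leaf, .leaf, .leaf,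
    .leaf, (.split 0 .leaf .leaf), .leaf, .leaf, .leaf, .leaf, .leaf, .leaf, (.split 2 .leaf (.split
    2 .leaf (.split 2 .leaf (.split 2 .leaf (.split 2 .leaf .leaf))))), .leaf, .leaf, .leaf, .leaf,
    .leaf, .leaf, .leaf, .leaf, (.split 2 .leaf (.split 2 .leaf (.split 2 .leaf (.split 2 .leaf
    (.split 2 .leaf .leaf))))), .leaf, .leaf, .leaf, .leaf, .leaf] = true := by
  decide +kernel

def check6_1 : cutAll dat.Z1 ((boxAll dat box6).drop 32)
  [(.split 0 .leaf .leaf), .leaf, (.split 0 (.split 1 (.split 0 .leaf .leaf) (.split 0 .leaf .leaf))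
    .leaf), .leaf, .leaf, .leaf, .leaf, .leaf] = true := by
  decide +kernel

def check7_0 : cutAll dat.Z1 ((boxAll dat box7).take 34)
  [.leaf, .leaf, .leaf, .leaf, .leaf, .leaf, .leaf, .leaf, .leaf, .leaf, .leaf, .leaf, .leaf, .leaf,
    .leaf, .leaf, .leaf, (.split 2 .leaf (.split 2 .leaf (.split 2 .leaf (.split 2 .leaf (.split 2
    .leaf .leaf))))), .leaf, .leaf, .leaf, .leaf, .leaf, .leaf, .leaf, .leaf, (.split 2 .leaf
    (.split 2 .leaf (.split 2 .leaf (.split 2 .leaf (.split 2 .leaf .leaf))))), .leaf, .leaf, .leaf,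
    .leaf, (.split 0 .leaf .leaf), .leaf, .leaf] = true := by
  decide +kernel

def check7_1 : cutAll dat.Z1 ((boxAll dat box7).drop 34)
  [.leaf, .leaf, (.split 0 (.split 1 .leaf .leaf) (.split 1 .leaf .leaf)), .leaf] = true := by
  decide +kernel

end Vale.Agent.P237.Petty.Cor.Low20.H2b
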