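import Vale.Agent.P237.Petty.Cor.Low20.H2b.Data

/-!
# P237: kernel checks of boxes 11 to 13
-/

namespace Vale.Agent.P237.Petty.Cor.Low20.H2b

def check11_0 : cutAll dat.Z1 ((boxAll dat box11).take 34)
  [.leaf, .leaf, .leaf, .leaf, .leaf, .leaf, .leaf, .leaf, .leaf, .leaf, .leaf, .leaf, .leaf, .leaf,
    .leaf, .leaf, .leaf, (.split 2 .leaf (.split 2 .leaf (.split 0 .leaf (.split 2 .leaf (.split 2
    .leaf .leaf))))), .leaf, .leaf, .leaf, .leaf, .leaf, .leaf, .leaf, .leaf, (.split 2 .leaf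
    (.split 2 .leaf (.split 0 .leaf (.split 2 .leaf (.split 2 .leaf .leaf))))), .leaf, .leaf, .leaf,
    .leaf, (.split 0 .leaf .leaf), .leaf, .leaf] = true := by
  decide +kernel

def check11_1 : cutAll dat.Z1 ((boxAll dat box11).drop 34)
  [.leaf, .leaf, (.split 0 (.split 1 .leaf .leaf) (.split 1 .leaf .leaf)), .leaf] = true := by
  decide +kernel

def check12_0 : cutAll dat.Z1 ((boxAll dat box12).take 31)
  [.leaf, .leaf, .leaf, .leaf, .leaf, .leaf, .leaf, .leaf, .leaf, .leaf, .leaf, .leaf, .leaf, .leaf,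
    .leaf, .leaf, .leaf, (.split 2 .leaf (.split 2 .leaf (.split 0 (.split 2 .leaf (.split 2 .leaf
    .leaf)) (.split 2 .leaf (.split 2 .leaf .leaf))))), .leaf, .leaf, .leaf, .leaf, .leaf, .leaf,
    .leaf, .leaf, (.split 2 .leaf (.split 2 .leaf (.split 0 (.split 2 .leaf (.split 2 .leaf .leaf))
    (.split 2 .leaf (.split 2 .leaf .leaf))))), .leaf, .leaf, .leaf, .leaf] = true := by
  decide +kernel

def check12_1 : cutAll dat.Z1 ((boxAll dat box12).drop 31)
  [(.split 0 .leaf .leaf), .leaf, .leaf, .leaf, .leaf, (.split 0 (.split 1 .leaf .leaf) (.split 1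
    .leaf .leaf)), .leaf] = true := by
  decide +kernel

def check13_0 : cutAll dat.Z1 ((boxAll dat box13).take 26)
  [.leaf, .leaf, .leaf, .leaf, .leaf, .leaf, .leaf, .leaf, .leaf, .leaf, .leaf, .leaf, .leaf, .leaf,
    .leaf, .leaf, .leaf, (.split 2 .leaf (.split 2 .leaf (.split 0 (.split 2 .leaf (.split 2 .leaf
    (.split 0 .leaf (.split 2 .leaf .leaf)))) (.split 2 .leaf (.split 2 .leaf (.split 0 (.split 2
    .leaf .leaf) .leaf)))))), .leaf, (.split 2 (.split 2 (.split 0 .leaf .leaf) .leaf) .leaf),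
    .leaf, .leaf, .leaf, .leaf, .leaf, .leaf] = true := by
  decide +kernel

end Vale.Agent.P237.Petty.Cor.Low20.H2b
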