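import Vale.Agent.P237.Petty.Cor.Low20.H2b.Data

/-!
# P237: kernel checks of boxes 13 to 15
-/

namespace Vale.Agent.P237.Petty.Cor.Low20.H2b

def check13_1 : cutAll dat.Z1 ((boxAll dat box13).drop 26)
  [(.split 2 .leaf (.split 2 .leaf (.split 0 (.split 2 .leaf (.split 2 .leaf (.split 0 .leaf (.split
    2 .leaf .leaf)))) (.split 2 .leaf (.split 2 .leaf (.split 0 (.split 2 .leaf .leaf) .leaf)))))),
    .leaf, (.split 2 (.split 2 (.split 0 .leaf .leaf) .leaf) .leaf), .leaf, .leaf, (.split 0 .leaf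
    .leaf), .leaf, .leaf, .leaf, .leaf, (.split 0 (.split 1 .leaf .leaf) (.split 1 .leaf .leaf)),
    .leaf] = true := by
  decide +kernel

def check14_0 : cutAll dat.Z1 ((boxAll dat box14).take 25)
  [.leaf, .leaf, .leaf, .leaf, .leaf, (.split 0 .leaf (.split 1 .leaf .leaf)), .leaf, .leaf, .leaf,
    .leaf, .leaf, .leaf, .leaf, .leaf, .leaf, .leaf, (.split 2 .leaf .leaf), (.split 2 (.split 2
    .leaf .leaf) (.split 2 (.split 0 (.split 2 .leaf .leaf) .leaf) .leaf)), (.split 2 (.split 2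
    .leaf (.split 0 .leaf .leaf)) (.split 2 (.split 0 .leaf .leaf) (.split 0 .leaf .leaf))), (.split
    2 (.split 2 (.split 0 (.split 2 (.split 2 (.split 0 .leaf .leaf) .leaf) .leaf) .leaf) .leaf)
    .leaf), .leaf, .leaf, .leaf, .leaf, .leaf] = true := by
  decide +kernel

def check14_1 : cutAll dat.Z1 ((boxAll dat box14).drop 25)
  [(.split 2 .leaf .leaf), (.split 2 (.split 2 .leaf .leaf) (.split 2 (.split 0 (.split 2 .leaf
    (.split 2 .leaf .leaf)) .leaf) (.split 0 .leaf (.split 2 .leaf .leaf)))), (.split 2 .leaf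
    (.split 2 .leaf (.split 0 .leaf .leaf))), (.split 2 (.split 2 (.split 0 (.split 2 (.split 2
    (.split 0 .leaf .leaf) .leaf) .leaf) .leaf) .leaf) .leaf), .leaf, .leaf, (.split 0 .leaf .leaf),
    .leaf, .leaf, .leaf, .leaf, (.split 0 (.split 1 .leaf .leaf) (.split 1 .leaf .leaf)), .leaf] = true := by
  decide +kernel

def check15_0 : cutAll dat.Z1 ((boxAll dat box15).take 27)
  [.leaf, .leaf, .leaf, .leaf, .leaf, .leaf, .leaf, .leaf, .leaf, .leaf, (.split 0 .leaf .leaf),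
    .leaf, .leaf, .leaf, .leaf, .leaf, (.split 2 .leaf (.split 2 .leaf .leaf)), (.split 2 .leaf
    .leaf), (.split 2 (.split 2 (.split 0 .leaf .leaf) (.split 0 .leaf .leaf)) (.split 2 (.split 0
    .leaf .leaf) (.split 0 .leaf .leaf))), .leaf, .leaf, .leaf, .leaf, .leaf, .leaf, (.split 2 .leaf
    (.split 2 .leaf .leaf)), (.split 2 .leaf .leaf)] = true := by
  decide +kernel

end Vale.Agent.P237.Petty.Cor.Low20.H2b
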