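import Vale.Agent.P237.Petty.Cor.Low20.H2b.Data

/-!
# P237: kernel checks of boxes 15 to 17
-/

namespace Vale.Agent.P237.Petty.Cor.Low20.H2b

def check15_1 : cutAll dat.Z1 ((boxAll dat box15).drop 27)
  [(.split 2 (.split 2 (.split 0 .leaf .leaf) (.split 0 .leaf .leaf)) (.split 2 (.split 0 .leaf
    .leaf) (.split 0 .leaf .leaf))), .leaf, .leaf, .leaf, (.split 0 .leaf .leaf), .leaf, .leaf,
    .leaf, .leaf, (.split 0 (.split 1 .leaf .leaf) (.split 1 .leaf .leaf)), .leaf] = true := by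
  decide +kernel

def check16_0 : cutAll dat.Z1 ((boxAll dat box16).take 33)
  [.leaf, .leaf, .leaf, .leaf, .leaf, (.split 0 .leaf (.split 1 .leaf .leaf)), .leaf, .leaf, .leaf,
    .leaf, (.split 0 .leaf .leaf), .leaf, .leaf, .leaf, .leaf, (.split 2 .leaf .leaf), (.split 2
    .leaf .leaf), (.split 2 .leaf .leaf), .leaf, .leaf, .leaf, .leaf, .leaf, .leaf, (.split 2 .leaf
    .leaf), (.split 2 .leaf .leaf), (.split 2 .leaf (.split 2 .leaf (.split 0 .leaf .leaf))), .leaf,
    .leaf, .leaf, .leaf, (.split 0 .leaf .leaf), .leaf] = true := by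
  decide +kernel

def check16_1 : cutAll dat.Z1 ((boxAll dat box16).drop 33)
  [.leaf, .leaf, .leaf, (.split 0 (.split 1 .leaf .leaf) (.split 1 .leaf .leaf)), .leaf] = true := by
  decide +kernel

def check17_0 : cutAll dat.Z1 ((boxAll dat box17).take 31)
  [.leaf, .leaf, .leaf, .leaf, .leaf, (.split 0 .leaf (.split 1 .leaf .leaf)), .leaf, (.split 0
    .leaf (.split 1 .leaf .leaf)), .leaf, .leaf, .leaf, .leaf, .leaf, .leaf, (.split 2 .leaf (.split
    2 .leaf .leaf)), (.split 2 .leaf .leaf), .leaf, (.split 2 .leaf .leaf), .leaf, .leaf, .leaf,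
    .leaf, .leaf, (.split 2 .leaf (.split 2 (.split 0 .leaf .leaf) .leaf)), (.split 2 .leaf .leaf),
    .leaf, (.split 2 .leaf .leaf), .leaf, .leaf, .leaf, .leaf] = true := by
  decide +kernel

def check17_1 : cutAll dat.Z1 ((boxAll dat box17).drop 31)
  [(.split 0 .leaf .leaf), .leaf, .leaf, .leaf, .leaf, (.split 0 (.split 1 .leaf .leaf) (.split 1
    .leaf .leaf)), .leaf] = true := by
  decide +kernel

end Vale.Agent.P237.Petty.Cor.Low20.H2b
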