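import Vale.Agent.P237.Petty.Cor.Low20.H2b.Data

/-!
# P237: kernel checks of boxes 19 to 20
-/

namespace Vale.Agent.P237.Petty.Cor.Low20.H2b

def check19_2 : cutAll dat.Z1 ((((boxAll dat box19).drop 11).drop 5).take 4)
  [(.split 0 (.split 2 .leaf (.split 2 (.split 1 (.split 0 .leaf .leaf) .leaf) (.split 1 (.split 0
    .leaf .leaf) .leaf))) .leaf), (.split 2 (.split 2 (.split 0 .leaf .leaf) (.split 0 .leaf .leaf))
    (.split 2 (.split 0 .leaf .leaf) (.split 0 .leaf .leaf))), (.split 2 (.split 2 (.split 0 .leaf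
    .leaf) (.split 0 .leaf .leaf)) (.split 2 (.split 0 .leaf .leaf) (.split 0 .leaf .leaf))),
    (.split 0 .leaf (.split 2 (.split 1 .leaf (.split 0 .leaf (.split 2 (.split 1 .leaf .out)
    (.split 1 .leaf .out)))) (.split 1 .leaf (.split 0 .leaf (.split 2 (.split 1 .leaf .out) (.split
    1 .leaf .out))))))] = true := by
  decide +kernel

def check19_3 : cutAll dat.Z1 (((((boxAll dat box19).drop 11).drop 5).drop 4).take 5)
  [(.split 0 (.split 2 (.split 1 .leaf (.split 0 .leaf (.split 2 .leaf (.split 1 .leaf (.split 0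
    .leaf (.split 2 .leaf (.split 1 .leaf .out))))))) (.split 1 .leaf (.split 0 .leaf (.split 2
    (.split 1 .leaf (.split 0 .leaf (.split 2 (.split 1 .leaf .out) .leaf))) .leaf)))) (.split 2
    (.split 1 .leaf (.split 0 (.split 2 .leaf (.split 1 .leaf (.split 0 (.split 2 .leaf (.split 1
    .leaf .out)) .leaf))) .leaf)) (.split 1 .leaf (.split 0 (.split 2 (.split 1 .leaf (.split 0
    (.split 2 (.split 1 .leaf .out) .leaf) .leaf)) .leaf) .leaf)))), .leaf, .leaf, (.split 2 .leaf
    (.split 2 .leaf (.split 0 .leaf .leaf))), (.split 2 (.split 2 (.split 0 .leaf .leaf) (.split 0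
    .leaf .leaf)) (.split 2 (.split 0 .leaf .leaf) (.split 0 .leaf .leaf)))] = true := by
  decide +kernel

def check19_4 : cutAll dat.Z1 ((((((boxAll dat box19).drop 11).drop 5).drop 4).drop 5).take 11)
  [(.split 0 (.split 2 .leaf (.split 2 (.split 1 (.split 0 .leaf .leaf) .leaf) (.split 1 (.split 0
    .leaf .leaf) .leaf))) .leaf), (.split 0 (.split 2 (.split 2 (.split 1 (.split 0 .leaf .leaf)
    .leaf) .leaf) .leaf) .leaf), (.split 2 (.split 2 (.split 0 .leaf .leaf) (.split 0 .leaf .leaf))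
    (.split 2 (.split 0 .leaf .leaf) (.split 0 .leaf .leaf))), (.split 0 .leaf (.split 2 (.split 1
    .leaf (.split 0 .leaf (.split 2 (.split 1 .leaf .out) (.split 1 .leaf .out)))) (.split 1 .leaf
    (.split 0 .leaf (.split 2 (.split 1 .leaf .out) (.split 1 .leaf .out)))))), (.split 1 .leaf
    (.split 0 (.split 1 .leaf (.split 1 .leaf (.split 0 .leaf (.split 1 .leaf .out)))) (.split 1
    .leaf (.split 1 (.split 0 .leaf .out) .out)))), .leaf, (.split 0 .leaf .leaf), .leaf, .leaf,
    .leaf, .leaf] = true := by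
  decide +kernel

def check19_5 : cutAll dat.Z1 ((((((boxAll dat box19).drop 11).drop 5).drop 4).drop 5).drop 11)
  [.leaf, .leaf] = true := by
  decide +kernel

def check20_0 : cutAll dat.Z1 ((boxAll dat box20).take 19)
  [.leaf, .leaf, .leaf, .leaf, .leaf, (.split 0 (.split 1 .leaf .leaf) (.split 1 .leaf .leaf)),
    .leaf, (.split 1 .leaf (.split 0 (.split 1 .leaf (.split 1 .leaf (.split 0 .leaf (.split 1 .leaf
    .out)))) (.split 1 .leaf (.split 1 (.split 0 .leaf .out) .out)))), .leaf, (.split 0 (.split 1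
    .leaf (.split 0 .leaf (.split 1 .leaf (.split 0 .leaf (.split 1 .leaf .out))))) (.split 1 .leaf
    (.split 0 (.split 1 .leaf (.split 0 (.split 1 .leaf .out) (.split 1 (.split 0 .leaf .out)
    .out))) (.split 1 .leaf .out)))), .leaf, .leaf, .leaf, .leaf, .leaf, .leaf, .leaf, .leaf, .leaf] = true := by
  decide +kernel

end Vale.Agent.P237.Petty.Cor.Low20.H2b
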