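import Vale.Agent.P237.Petty.Cor.Low20.H2b.Data

/-!
# P237: kernel checks of boxes 20 to 22
-/

namespace Vale.Agent.P237.Petty.Cor.Low20.H2b

def check20_1 : cutAll dat.Z1 ((boxAll dat box20).drop 19)
  [(.split 0 .leaf (.split 2 (.split 1 .leaf (.split 0 .leaf (.split 2 .leaf (.split 1 .leaf
    .out)))) (.split 1 .leaf (.split 0 .leaf (.split 2 (.split 1 .leaf .out) (.split 1 .leaf
    .out)))))), .leaf, .leaf, .leaf, .leaf, .leaf, .leaf, .leaf, .leaf, (.split 0 .leaf (.split 2
    (.split 1 .leaf (.split 0 .leaf (.split 2 .leaf (.split 1 .leaf .out)))) (.split 1 .leaf (.split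
    0 .leaf (.split 2 (.split 1 .leaf .out) (.split 1 .leaf .out)))))), (.split 1 .leaf (.split 0
    (.split 1 .leaf (.split 1 .leaf (.split 0 .leaf (.split 1 .leaf .out)))) (.split 1 .leaf (.split
    1 (.split 0 .leaf .out) .out)))), .leaf, (.split 0 .leaf .leaf), .leaf, .leaf, .leaf, .leaf,
    .leaf, .leaf] = true := by
  decide +kernel

def check21_0 : cutAll dat.Z1 ((boxAll dat box21).take 29)
  [.leaf, .leaf, .leaf, .leaf, .leaf, (.split 0 (.split 1 .leaf .leaf) (.split 1 .leaf .leaf)),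
    .leaf, (.split 0 .leaf (.split 1 .leaf (.split 0 (.split 1 .leaf .out) (.split 1 .leaf .out)))),
    .leaf, (.split 0 .leaf (.split 1 .leaf (.split 0 (.split 1 .leaf .out) (.split 1 (.split 0 .leaf
    (.split 1 .leaf .out)) .out)))), .leaf, .leaf, .leaf, .leaf, .leaf, .leaf, .leaf, .leaf, .leaf,
    .leaf, .leaf, .leaf, .leaf, .leaf, .leaf, .leaf, .leaf, .leaf, .leaf] = true := by
  decide +kernel

def check21_1 : cutAll dat.Z1 ((boxAll dat box21).drop 29)
  [(.split 0 (.split 1 .leaf (.split 0 .leaf (.split 1 .leaf (.split 0 .leaf (.split 1 .leaf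
    .out))))) (.split 1 .leaf (.split 0 (.split 1 .leaf .out) (.split 1 .leaf .out)))), .leaf,
    .leaf, .leaf, .leaf, .leaf, .leaf, .leaf, .leaf] = true := by
  decide +kernel

def check22_0 : cutAll dat.Z1 ((boxAll dat box22).take 19)
  [.leaf, .leaf, .leaf, .leaf, .leaf, (.split 0 .leaf (.split 1 .leaf .leaf)), .leaf, (.split 0
    .leaf (.split 1 .leaf (.split 0 (.split 1 .leaf .out) .out))), .leaf, (.split 0 .leaf (.split 1
    .leaf (.split 0 (.split 1 .leaf .out) .out))), .leaf, (.split 0 (.split 0 .leaf .leaf) .leaf),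
    (.split 0 (.split 0 .leaf .leaf) .leaf), (.split 0 (.split 0 .leaf .leaf) .leaf), (.split 0
    (.split 0 .leaf .leaf) .leaf), (.split 0 (.split 0 .leaf .leaf) .leaf), (.split 0 (.split 0
    (.split 0 .leaf .leaf) .leaf) .leaf), (.split 0 (.split 0 (.split 0 .leaf .leaf) .leaf) .leaf),
    (.split 0 (.split 0 (.split 0 .leaf .leaf) .leaf) .leaf)] = true := by
  decide +kernel

end Vale.Agent.P237.Petty.Cor.Low20.H2b
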