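import Vale.Agent.P237.Petty.Cor.Low20.H2b.Data

/-!
# P237: kernel checks of boxes 22 to 23
-/

namespace Vale.Agent.P237.Petty.Cor.Low20.H2b

def check22_1 : cutAll dat.Z1 ((boxAll dat box22).drop 19)
  [(.split 0 (.split 0 .leaf .leaf) .leaf), (.split 0 (.split 0 .leaf .leaf) .leaf), (.split 0
    (.split 0 .leaf .leaf) .leaf), (.split 0 (.split 0 .leaf .leaf) .leaf), (.split 0 (.split 0
    .leaf .leaf) .leaf), (.split 0 (.split 0 .leaf .leaf) .leaf), (.split 0 (.split 0 (.split 0
    .leaf .leaf) .leaf) .leaf), (.split 0 (.split 0 (.split 0 .leaf .leaf) .leaf) .leaf), (.split 0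
    (.split 0 (.split 0 .leaf .leaf) .leaf) .leaf), (.split 0 (.split 0 .leaf .leaf) .leaf), (.split
    0 .leaf (.split 1 .leaf (.split 0 (.split 1 .leaf .out) .out))), .leaf, .leaf, .leaf, .leaf,
    .leaf, .leaf, .leaf, .leaf] = true := by
  decide +kernel

def check23_0 : cutAll dat.Z1 ((boxAll dat box23).take 23)
  [.leaf, .leaf, .leaf, .leaf, .leaf, .leaf, .leaf, (.split 0 .leaf .out), .leaf, (.split 0 .leaf
    .out), .leaf, .leaf, .leaf, .leaf, (.split 2 (.split 2 (.split 0 .leaf .out) (.split 0 .leaf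
    .out)) (.split 2 (.split 0 .leaf .out) (.split 0 .leaf .out))), (.split 2 (.split 2 (.split 0
    .leaf .out) (.split 0 .leaf .out)) (.split 2 (.split 0 .leaf .out) (.split 0 .leaf .out))),
    (.split 2 (.split 2 (.split 0 .leaf .out) (.split 0 .leaf .out)) (.split 2 (.split 0 .leaf .out)
    (.split 0 .leaf .out))), (.split 2 (.split 2 (.split 0 .leaf .out) (.split 0 .leaf .out))
    (.split 2 (.split 0 .leaf .out) (.split 0 .leaf .out))), (.split 2 (.split 2 (.split 0 .leaf
    .out) (.split 0 .leaf .out)) (.split 2 (.split 0 .leaf .out) (.split 0 .leaf .out))), (.split 0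
    (.split 2 .leaf (.split 2 .leaf (.split 1 (.split 0 .leaf .leaf) .leaf))) .out), .leaf, .leaf,
    .leaf] = true := by
  decide +kernel

def check23_1 : cutAll dat.Z1 ((boxAll dat box23).drop 23)
  [(.split 2 (.split 2 (.split 0 .leaf .out) (.split 0 .leaf .out)) (.split 2 (.split 0 .leaf .out)
    (.split 0 .leaf .out))), (.split 2 (.split 2 (.split 0 .leaf .out) (.split 0 .leaf .out))
    (.split 2 (.split 0 .leaf .out) (.split 0 .leaf .out))), (.split 2 (.split 2 (.split 0 .leaf
    .out) (.split 0 .leaf .out)) (.split 2 (.split 0 .leaf .out) (.split 0 .leaf .out))), (.split 2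
    (.split 2 (.split 0 .leaf .out) (.split 0 .leaf .out)) (.split 2 (.split 0 .leaf .out) (.split 0
    .leaf .out))), (.split 2 (.split 2 (.split 0 .leaf .out) (.split 0 .leaf .out)) (.split 2
    (.split 0 .leaf .out) (.split 0 .leaf .out))), (.split 2 (.split 2 (.split 0 .leaf .out) (.split
    0 .leaf .out)) (.split 2 (.split 0 .leaf .out) (.split 0 (.split 2 .leaf (.split 2 (.split 0
    .leaf .leaf) (.split 0 .leaf .leaf))) .out))), (.split 0 .leaf .out), .leaf, (.split 0 .leaf
    .out), .leaf, .leaf, .leaf, .leaf, .leaf, .leaf] = true := by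
  decide +kernel

end Vale.Agent.P237.Petty.Cor.Low20.H2b
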